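import Crest.Agent.X212.Frc61.Fred
import Crest.Agent.X212.Cht98.PchA
import Crest.Agent.X212.St29.Ms

/-! # Lane MODEL-S (helper61): **FR-C**, the linearisations differ by compact operators -/

set_option autoImplicit false
set_option linter.unusedSectionVars false
noncomputable section
open scoped Manifold ContDiff Topology InnerProductSpace
open MeasureTheory Set Function Filter

namespace Crest.Agent.X212.Frc61
open An An.Pre Sob92 Prm93 Sw Sw.En3 Pb50 Map77 Map77.S Cyf70 Cht98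
open St29 (cv c0 cv_pt mF lc_mF lb_eq lbF)
open Nd18 (Dp)
open M (Mf)

variable {κ lam ν : Type} [Fintype κ] [Fintype lam] [Fintype ν] [DecidableEq ν]
  {N : Type} [Fintype N] {X : Mf 4} {nc nr : ℕ}

theorem cq_dense {A B E F G H : Type*} [TopologicalSpace B] [NormedAddCommGroup E] [NormedSpace ℝ E]
    [NormedAddCommGroup F] [NormedSpace ℝ F] [NormedAddCommGroup G] [NormedSpace ℝ G]
    [NormedAddCommGroup H] [NormedSpace ℝ H] [CompleteSpace F] {i : A → B} (hi : DenseRange i)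
    {f : B → G →L[ℝ] H} (hf : Continuous f) (j : H →L[ℝ] F) (e : E →L[ℝ] G) {L : E →L[ℝ] F}
    (h : ∀ a, Cq (j ∘L f (i a) ∘L e) L) (b : B) : Cq (j ∘L f b ∘L e) L :=
  hi.induction_on b (isClosed_setOfPred_isCompactOperator.preimage
    ((continuous_const.clm_comp (hf.clm_comp continuous_const)).sub continuous_const)) h

/-- `c` and `c'` agree outside `A` -/
def Ag (A : Set X.M) (c c' : Sw.Cfg X.M κ ν) : Prop :=
  ∀ x ∉ A, (∀ i, c.a i x = c'.a i x) ∧ c.Φ x = c'.Φ x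

theorem Ag.vr {A : Set X.M} {c c' : Sw.Cfg X.M κ ν} (h : Ag A c c') (u : X.M → S.Cf κ ν) (r : ℝ) :
    Ag A (vr c u r) (vr c' u r) := fun x hx =>
  ⟨fun i => congrArg (· + _) ((h x hx).1 i), congrArg (· + _) (h x hx).2⟩

theorem sat_nk {e : En3 κ lam ν} {b : Bg X.I X.M κ lam ν nc} (K : Sw.Nk e b) {A : Set X.M}
    (hA : IsCompact A) : ∃ A', IsCompact A' ∧ ∀ c c', Ag A c c' → ∀ x ∉ A, x ∉ A' →
      K.rad c x = K.rad c' x ∧ K.hl c x = K.hl c' x := by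
  have hs : (univ : Set e.Y.M) ×ˢ (K.tm '' A ∩ Dp K.p K.q 1) ⊆ K.ψ.source := fun z hz =>
    K.mem_src.2 (Nd18.Dp_sub one_pos hz.2.2)
  refine ⟨_, (isCompact_univ.prod ((hA.image K.cont).inter_right Nd18.isClosed_Dp)
    ).image_of_continuousOn (K.ψ.continuousOn.mono hs), fun c c' h x hx hx' => ?_⟩
  by_cases k : x ∈ K.dp 1
  · have ht := K.dp_sub one_pos k
    have h1 : ∀ y, K.ψ (y, K.tm x) ∉ A := fun y hy => hx' ⟨_, ⟨trivial, K.snd_symm ht ▸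
      ⟨⟨_, hy, K.tm_ψ _ (src K (Nd18.Dp_sub one_pos k) y)⟩, k⟩⟩, K.ψ.right_inv ht⟩
    have h2 : sl (K.pb c) (K.tm x) = sl (K.pb c') (K.tm x) :=
      YC.ext (funext₂ fun i y => (h _ (h1 y)).1 _) (funext fun y => (h _ (h1 y)).2)
    simp only [Nk.rad, Nk.hl, h2, (h x hx).2, and_self]
  · simp only [Nk.rad, Nk.hl, K.χ_zero k, K.ext_zero _ k, zero_mul, zero_smul, smul_zero, and_self]

/-- the fixed terms on the necks do not see a compactly supported change far away -/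
theorem sat {e : N → En3 κ lam ν} (P : Pz X nc e) {A : Set X.M} (hA : IsCompact A) :
    ∃ A', IsCompact A' ∧ A ⊆ A' ∧ ∀ c c', Ag A c c' → ∀ x ∉ A',
      P.p0.D c x = P.p0.D c' x ∧ P.p0.C c x = P.p0.C c' x := by
  have : ∀ i, ∃ A', IsCompact A' ∧ ∀ K ∈ P.nk i, ∀ c c', Ag A c c' → ∀ x ∉ A, x ∉ A' →
      K.rad c x = K.rad c' x ∧ K.hl c x = K.hl c' x := fun i => by
    cases P.nk i with
    | none => exact ⟨∅, isCompact_empty, fun _ h => by simp at h⟩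
    | some K => exact (sat_nk K hA).imp fun _ h => ⟨h.1, fun _ e => Option.some.inj e ▸ h.2⟩
  choose B h1 h2 using this
  refine ⟨A ∪ ⋃ i, B i, hA.union (isCompact_iUnion h1), subset_union_left, fun c c' h x hx => ?_⟩
  have h3 := fun i K hK => h2 i K hK c c' h x (fun k => hx (.inl k))
    fun k => hx (.inr (mem_iUnion.2 ⟨i, k⟩))
  exact ⟨Finset.sum_congr rfl fun i _ => elim_congr fun K hK => (h3 i K hK).1,
    Finset.sum_congr rfl fun i _ => elim_congr fun K hK => (h3 i K hK).2⟩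

variable {d : Dt κ lam ν} {ty : N → d.𝓔}
  {T : Type} [NormedAddCommGroup T] [NormedSpace ℝ T] [FiniteDimensional ℝ T]
  {s : Pz X 0 fun i => d.e (ty i)} {σ : Cel s nc nr T} {k : ℕ} {t : T} {q q' : d.W →₀ ℝ}

theorem EE_D (c : Sw.Cfg X.M κ ν) (x : X.M) :
    (EE σ q t c).1 x = (σ.P t).bg.eD c x - (σ.P t).p0.D c x := rfl

theorem EE_C (c : Sw.Cfg X.M κ ν) (x : X.M) : (EE σ q t c).2.1 x = (σ.P t).bg.eC c x -
    ((σ.P t).p0.C c x + q.sum fun w r => r • (σ.P t).tm w c x) := rfl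

theorem cv_add (h : σ.toFam.OK) (hk : 3 ≤ k) {v : σ.C k} (hv : v ∈ σ.U k) (w : σ.C k) (r : ℝ) :
    cv σ ((v.1 + r • w.1, v.2.1 + r • w.2.1, v.2.2) : σ.C k) =
      vr (cv σ v) (s.bg.F.val _ _ (jC σ k v.2.2 w)) r := by
  refine Cfg.ext (funext₂ fun a x => ?_) (funext fun x => ?_)
  · simp only [cv, c0, vr, co_jC h hv hk, val_add, val_smul, Pi.add_apply, Pi.smul_apply,
      PiLp.add_apply, PiLp.smul_apply, smul_eq_mul, Finset.mul_sum, ← Finset.sum_add_distrib]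
    exact Finset.sum_congr rfl fun _ _ => by ring
  · simp only [cv, c0, vr, sp_jC h hv hk, val_add, val_smul, Pi.add_apply, Pi.smul_apply, add_assoc]

/-- the terms have locally uniformly compact support -/
theorem tm_far (h : σ.OK) (hk : 4 ≤ k) {v₀ : σ.C k} (hv : v₀ ∈ σ.U k) (w : d.W) :
    ∃ A, IsCompact A ∧ ∀ᶠ v in 𝓝 v₀, (σ.P v.2.2).bg.Adm (cv σ v) → ∀ x ∉ A,
      (σ.P v.2.2).tm w (cv σ v) x = 0 := by
  have : ∀ i, ∃ A, IsCompact A ∧ ∀ᶠ v in 𝓝 v₀, (σ.P v.2.2).bg.Adm (cv σ v) → ∀ x ∉ A,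
      (((σ.P v.2.2).nk i).elim 0 fun K => (d.yt w (ty i)).elim 0 fun Y => K.ms Y (cv σ v) x) = 0 :=
    fun i => by
      cases d.yt w (ty i) with
      | none => exact ⟨∅, isCompact_empty, .of_forall fun _ _ _ _ => elim_zero fun _ _ => rfl⟩
      | some Y =>
        obtain ⟨U, h1, A, h2, -, h3⟩ := lc_mF (i := i) h.toOK h.gd hk Y v₀ hv
        refine ⟨A, h2, mem_of_superset h1 fun v hv ha x hx =>
          Eq.trans (elim_congr fun K hK => ?_) (h3 v hv x hx)⟩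
        by_cases k : x ∈ K.dp 1
        · simp only [Option.elim_some, Nk.ms, lb_eq K (h.site.en i) ha k, lbF, Option.mem_def.1 hK]
        · exact (smul_eq_zero_of_right _ (K.ext_zero _ k)).trans
            (smul_eq_zero_of_right _ (K.ext_zero _ k)).symm
  choose B h1 h2 using this
  obtain ⟨r, hr⟩ := h.cfo w
  refine ⟨s.core r ∪ ⋃ i, B i, (h.site.cpt r).union (isCompact_iUnion h1),
    ((eventually_all.2 h2).and ((isOpen_U h.toOK).mem_nhds hv)).mono fun v k ha x hx => ?_⟩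
  rw [Pc.tm, hr _ k.2 x fun k => hx (.inl k), zero_add]
  exact Finset.sum_eq_zero fun i _ => k.1 i ha x fun k => hx (.inr (mem_iUnion.2 ⟨i, k⟩))

variable (h : Md σ) (hk : 7 ≤ k) {c c' : Sw.Cfg X.M κ ν}
  (hc : t ∈ σ.Q ∧ (σ.P t).As σ.β c) (hc' : t ∈ σ.Q ∧ (σ.P t).As σ.β c')
include h hk

theorem gn_Tc : Gn (Tc σ k q (σ.pt k ⟨(t, c), hc⟩) - Tc σ k q' (σ.pt k ⟨(t, c'), hc'⟩)) := by
  obtain ⟨n, h1⟩ := h.gainL k hk q ⟨(t, c), hc⟩
  obtain ⟨n', h2⟩ := h.gainL k hk q' ⟨(t, c'), hc'⟩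
  obtain ⟨m, h3⟩ := LF_sub (k := k) h.ok hc.1 (h.op ⟨(t, c), hc⟩).2 (h.op ⟨(t, c'), hc'⟩).2
  refine ⟨m + n - n', ?_⟩
  rw [h1, h2, h3, ContinuousLinearMap.comp_sub, ContinuousLinearMap.comp_add]
  abel

theorem cq_of_ev {A : Set X.M} (hA : IsCompact A) (H : ∀ u : Sec X.I (pC s.bg), ∀ x ∉ A,
    (∀ᶠ r in 𝓝 (0 : ℝ), (EE σ q t (vr c u.1 r)).1 x = (EE σ q' t (vr c' u.1 r)).1 x ∧
      (EE σ q t (vr c u.1 r)).2.1 x = (EE σ q' t (vr c' u.1 r)).2.1 x) ∧ c.Φ x = c'.Φ x) :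
    Cq (Tc σ k q (σ.pt k ⟨(t, c), hc⟩)) (Tc σ k q' (σ.pt k ⟨(t, c'), hc'⟩)) := by
  refine cq_of_supp h.ok.site.bg.tame.choose_spec (by omega) (gn_Tc h hk hc hc')
    (s.bg.F.dense_toH _ _) hA fun u x hx => ?_
  have hS := sup h.ok
  rw [← Mod61.ofV_eq hS (by omega) (val_toH hS (by omega : 4 ≤ k + 1) u)]
  obtain ⟨a1, a2, a3⟩ := (h.pw k hk q ⟨(t, c), hc⟩ _ (Mod61.Hs_sec hS u)).2.2 x _ rfl
  obtain ⟨b1, b2, b3⟩ := (h.pw k hk q' ⟨(t, c'), hc'⟩ _ (Mod61.Hs_sec hS u)).2.2 x _ rfl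
  obtain ⟨e1, e2⟩ := H u x hx
  refine ext2 (ext2 (a1.unique (b1.congr_of_eventuallyEq (e1.mono fun _ e => e.1)))
    (a2.unique (b2.congr_of_eventuallyEq (e1.mono fun _ e => e.2)))) (a3.trans (Eq.trans ?_ b3.symm))
  simp only [lG, e2]

/-- independence of the perturbation -/
theorem cq_q (y : σ.Pnt) : Cq (Tc σ k q (σ.pt k y)) (Tc σ k 0 (σ.pt k y)) := by
  obtain ⟨⟨t, c⟩, hc⟩ := y
  have hS := sup h.ok
  choose B h1 h2 using tm_far h.OK (by omega : 4 ≤ k) (v₀ := σ.pt k ⟨(t, c), hc⟩) hc.1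
  refine cq_of_ev h hk hc hc (q.support.isCompact_biUnion fun w _ => h1 w) fun u x hx => ⟨?_, rfl⟩
  let w := eC σ k t (s.bg.F.toH _ _ u)
  let v := σ.pt k ⟨(t, c), hc⟩
  have e : ∀ r : ℝ, cv σ ((v.1 + r • w.1, v.2.1 + r • w.2.1, t) : σ.C k) = vr c u.1 r := fun r =>
    (cv_add h.ok (by omega) (v := v) hc.1 w r).trans (congrArg₂ (vr · · r)
      (cv_pt h.ok h.cr (by omega) _) ((congrArg _ (jC_eC h.ok hc.1 _)).trans
        (val_toH hS (by omega) u)))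
  have l : Tendsto (fun r : ℝ => ((v.1 + r • w.1, v.2.1 + r • w.2.1, t) : σ.C k)) (𝓝 0) (𝓝 v) :=
    Continuous.tendsto' (by fun_prop) _ _ (by simp only [zero_smul, add_zero]; rfl)
  filter_upwards [l.eventually ((eventually_all_finset q.support).2 fun w _ => h2 w)] with r hr
  rw [e] at hr
  rw [EE_C, EE_C, Finsupp.sum_zero_index, Finsupp.sum, Finset.sum_eq_zero fun w hw => by
    rw [hr w hw ((h.pw k hk q ⟨(t, c), hc⟩ _ (Mod61.Hs_sec hS u)).1 r).1 x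
      fun k => hx (mem_biUnion hw k), smul_zero]]
  exact ⟨rfl, rfl⟩

/-- independence of a compactly supported change of the configuration -/
theorem cq_c {A : Set X.M} (hA : IsCompact A) (e : Ag A c c') :
    Cq (Tc σ k 0 (σ.pt k ⟨(t, c), hc⟩)) (Tc σ k 0 (σ.pt k ⟨(t, c'), hc'⟩)) := by
  obtain ⟨A', h1, h2, h3⟩ := sat (σ.P t).toPz hA
  refine cq_of_ev h hk hc hc' h1 fun u x hx => ⟨.of_forall fun r => ?_, (e x fun k => hx (h2 k)).2⟩
  have n := hA.isClosed.isOpen_compl.mem_nhds fun k => hx (h2 k)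
  have a1 : ∀ i, (vr c u.1 r).a i =ᶠ[𝓝 x] (vr c' u.1 r).a i := fun i =>
    mem_of_superset n fun z hz => (e.vr u.1 r z hz).1 i
  have a2 : (vr c u.1 r).Φ =ᶠ[𝓝 x] (vr c' u.1 r).Φ := mem_of_superset n fun z hz => (e.vr u.1 r z hz).2
  obtain ⟨a3, a4⟩ := h3 _ _ (e.vr u.1 r) x hx
  rw [EE_D, EE_D, EE_C, EE_C, Sw88.eD_congr a1 a2, Sw88.eC_congr a1 a2, a3, a4,
    Finsupp.sum_zero_index, Finsupp.sum_zero_index]
  exact ⟨rfl, rfl⟩

theorem cq_sec (ht : t ∈ σ.Q) (α : Sec X.I s.bg.p1) (φ : Sec X.I s.bg.pp) :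
    Cq (Tc σ k 0 (s.bg.F.toH _ _ α, s.bg.F.toH _ _ φ, t)) (Tc σ k 0 (0, 0, t)) := by
  have hS := sup h.ok
  have h4 : 4 ≤ k + 1 := by omega
  obtain ⟨⟨⟨t', c⟩, hc⟩, e⟩ := exists_pt h.ok h.cr ht (Mod61.Hs_sec hS α) (Mod61.Hs_sec hS φ)
  have e := e k
  obtain rfl : t' = t := congrArg (·.2.2) e
  rw [Mod61.ofV_eq hS h4 (val_toH hS h4 α), Mod61.ofV_eq hS h4 (val_toH hS h4 φ)] at e
  rw [← e, ← pt_y0 h.toHy (by omega : 3 ≤ k) ht]
  refine cq_c h hk hc (h.toHy.y0 ht).2 (α.2.2.1.union φ.2.2.1) fun x hx => ?_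
  have h1 := cv_pt h.ok h.cr (by omega : 4 ≤ k) ⟨(t', c), hc⟩
  rw [e] at h1
  rw [show c = _ from h1.symm]
  simp only [cv, c0, val_toH hS h4, image_eq_zero_of_notMem_tsupport fun k => hx (.inl k),
    image_eq_zero_of_notMem_tsupport fun k => hx (.inr k), PiLp.zero_apply, add_zero]
  exact ⟨fun _ => rfl, rfl⟩

/-- independence of the point of the Banach model -/
theorem cq_v (ht : t ∈ σ.Q) (z : s.bg.F.H (k + 1) s.bg.p1 × s.bg.F.H (k + 1) s.bg.pp) :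
    Cq (Tc σ k 0 (z.1, z.2, t)) (Tc σ k 0 (0, 0, t)) :=
  cq_dense ((s.bg.F.dense_toH _ _).prodMap (s.bg.F.dense_toH _ _))
    (f := fun z => TT σ k 0 (z.1, z.2, t))
    ((cont_TT h hk 0).comp_continuous (by fun_prop) fun _ => ht) (jE σ k) (eC σ k t)
    (fun a => cq_sec h hk ht a.1 a.2) z

omit h hk in
variable (d ty X nc nr T) in
/-- **FR-C** -/
theorem frC : FrC d ty X nc nr T := fun _ σ h k hk _ y =>
  (cq_q h hk y).trans (pt_y0 h.toHy (by omega : 3 ≤ k) y.2.1 ▸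
    cq_v h hk y.2.1 ((σ.pt k y).1, (σ.pt k y).2.1))

omit h hk in
/-- **SW-FRED** from MD and FR-0 -/
theorem fred (hM : MdStmt d ty X nc nr T) (h0 : Fr0 d ty X nc nr T) : FredStmt d ty X nc nr T :=
  fredStmt hM h0 (frC X nc nr d ty T)

end Crest.Agent.X212.Frc61
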