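import Crest.Agent.X212.Map77.S3
import Crest.Agent.X212.Map77.Lin

/-! # Lane MODEL-S (helper61): **SW-FRED** from MD, FR-0 and FR-C -/

set_option autoImplicit false
set_option linter.unusedSectionVars false
noncomputable section
open scoped Manifold ContDiff Topology InnerProductSpace
open MeasureTheory Set Function Filter Module

namespace Crest.Agent.X212.Frc61
open An An.Pre Sob92 Prm93 Sw Pb50 Map77 Map77.S Cyf70
open Fred93 (Fr)
open M (Mf)

variable {κ lam ν : Type} [Fintype κ] [Fintype lam] [Fintype ν] [DecidableEq ν]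
  {d : Dt κ lam ν} {N : Type} [Fintype N] {ty : N → d.𝓔} {X : Mf 4} {nc nr : ℕ}
  {T : Type} [NormedAddCommGroup T] [NormedSpace ℝ T] [FiniteDimensional ℝ T]
  {s : Pz X 0 fun i => d.e (ty i)} {σ : Cel s nc nr T} {k : ℕ} {t : T} {q : d.W →₀ ℝ} {n : ℤ}

/-- the fields in the frame of the site -/
def aC (h : σ.toFam.OK) (ht : t ∈ σ.Q) (k : ℕ) :
    HC s (k + 1) ≃L[ℝ] s.bg.F.H (k + 1) s.bg.p1 × s.bg.F.H (k + 1) s.bg.pp :=
  (sumH _ _ _ _).trans ((ContinuousLinearEquiv.equivOfInverse (mS s (k + 1) (σ.Si t))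
    (mS s (k + 1) (σ.S t)) (mS_mSi h ht) (mSi_mS h ht)).prodCongr (.refl ℝ _))

variable (s) in
/-- the row and the two field equations -/
def bE (k : ℕ) : HE s k ≃L[ℝ] HR s k × s.bg.F.H k s.bg.pm × s.bg.F.H k s.bg.p2 :=
  (sumH _ _ _ _).trans ((ContinuousLinearEquiv.prodComm ℝ _ _).trans
    (((Units.mk0 (2 : ℝ) two_ne_zero) • ContinuousLinearEquiv.refl ℝ _).prodCongr (sumH _ _ _ _)))

theorem bE_apply (z : HE s k) : bE s k z =
    ((2 : ℝ) • sH _ _ _ _ z, fH _ _ _ _ (fH _ _ _ _ z), sH _ _ _ _ (fH _ _ _ _ z)) := rfl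

theorem bE_jE (w : σ.Y k × HR s k) : bE s k (jE σ k w) = (w.2, w.1.1, w.1.2.1) := by
  rw [bE_apply, jE_apply, jY_apply]
  simp only [map_add, map_smul, fH_iH1, fH_iH2, sH_iH1, sH_iH2, smul_zero, add_zero, zero_add,
    smul_smul]
  norm_num

/-- the shift between the two indices -/
abbrev sh (T : Type) [AddCommGroup T] [Module ℝ T] (nc nr : ℕ) (n : ℤ) : ℤ :=
  n + finrank ℝ T - finrank ℝ ((Fin nc → ℂ) × (Fin nr → ℝ))

/-- **the dictionary** -/
theorem fr_TT (h : σ.toFam.OK) {v : σ.C k} (hv : v ∈ σ.U k) (e : Fr (Tc σ k q v) n) :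
    Fr (TT σ k q v) (sh T nc nr n) :=
  fr_dic (aC h hv k) (bE s k) e (i := eC σ k v.2.2) (fun _ => rfl) fun _ => bE_jE _

theorem pt_y0 (h : Hy σ) (hk : 3 ≤ k) (ht : t ∈ σ.Q) : σ.pt k (h.y0 ht) = (0, 0, t) := by
  refine Prod.ext (val_injective (sup h.ok) (by omega) ?_)
    (Prod.ext (val_injective (sup h.ok) (by omega) ?_) rfl)
  · rw [val_a h.ok h.cr hk, val_zero]
    refine funext fun x => sub_eq_zero.2 ?_
    ext a
    exact al_S h.ok ht (adm_base h.cr).pa _ x a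
  · rw [val_Φ h.ok h.cr hk, val_zero]
    exact sub_self _

variable (h : Md σ) (hk : 7 ≤ k)
include h hk

theorem cont_TT (q : d.W →₀ ℝ) : ContinuousOn (TT σ k q) (σ.U k) :=
  ((ContinuousLinearMap.prodₗᵢ ℝ).continuous.comp_continuousOn
    (((h.F k hk q).1.continuousOn_fderiv_of_isOpen (isOpen_U h.ok) (by simp)).prodMk
      (h.row k hk).1.continuousOn) :)

theorem incl_Tc {j : ℕ} (hj : 7 ≤ j) (hjk : j ≤ k) (y : σ.Pnt) (u : HC s (k + 1)) :
    s.bg.F.incl k j _ (Tc σ k q (σ.pt k y) u) =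
      Tc σ j q (σ.pt j y) (s.bg.F.incl (k + 1) (j + 1) _ u) := by
  obtain ⟨h1, h2⟩ := h.lev k j hj hjk
  have e := ((h2 q (σ.pt k y) y.2.1).2 (eC σ k y.1.1 u)).2.2
  rw [h1] at e
  change s.bg.F.incl k j _ (Tc σ k q _ (jC σ k y.1.1 _)) = Tc σ j q _ (jC σ j y.1.1 _) at e
  rwa [← incl_jC h.ok y.2.1 hjk, jC_eC h.ok y.2.1] at e

theorem reg_Tc (y : σ.Pnt) (u : HC s (k + 1)) (f : HE s (k + 1))
    (e : Tc σ k q (σ.pt k y) u = s.bg.F.incl (k + 1) k _ f) :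
    ∃ u', s.bg.F.incl (k + 2) (k + 1) _ u' = u := by
  obtain ⟨m, hm⟩ := h.gainL k hk q y
  refine (h.tw _ y.2.1).reg (h.op y).2 (h.op y).1.cl.1 k.le_succ (w := f - m u) ?_
  rw [hm] at e
  exact (eq_sub_of_add_eq e).trans (map_sub _ _ _).symm

/-- the index does not depend on the level -/
theorem fr_lev (y : σ.Pnt) (e : Fr (Tc σ 7 q (σ.pt 7 y)) n) : Fr (Tc σ k q (σ.pt k y)) n := by
  induction k, hk using Nat.le_induction with
  | base => exact e
  | succ k hk ih =>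
    have := transfer (incl_injective (k + 1).le_succ) (incl_injective k.le_succ)
      (denseRange_incl k.le_succ) (incl_Tc h (by omega) hk k.le_succ y) (reg_Tc h hk y)
      (fred_iff_isFredholm.2 ih.1)
    exact ⟨fred_iff_isFredholm.1 this.1, this.2.1.trans ih.2⟩

omit hk in
/-- the index of a cell, from the index of the field part at one base point -/
theorem ind_of (h0 : Fr0 d ty X nc nr T) (hC : FrC d ty X nc nr T) (ht : t ∈ σ.Q)
    (e : Fr (Tc σ 7 0 (σ.pt 7 (h.toHy.y0 ht))) n) : σ.Ind (sh T nc nr n) := fun k hk q y => by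
  refine ⟨row σ k (σ.pt k y), (h.row k hk).2 y, ?_⟩
  have h1 : ∀ t (ht : t ∈ σ.Q) m, Fr (Tc σ k 0 (σ.pt k (h.toHy.y0 ht))) m →
      Fr (TT σ k 0 (0, 0, t)) (sh T nc nr m) := fun t ht m e =>
    pt_y0 h.toHy (by omega : 3 ≤ k) ht ▸ fr_TT h.ok ht e
  have h2 := Fr.of (h0 s σ h k hk _ y.2.1)
  have h3 := Fr.of_preconnected h.ok.con (L := fun t => TT σ k 0 (0, 0, t))
    ((cont_TT h hk 0).comp (by fun_prop) fun _ ht => ht)
    (fun t ht => (h1 t ht _ (.of (h0 s σ h k hk t ht))).1) ht y.2.1 (h1 t ht n (fr_lev h hk _ e))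
  exact (fr_TT h.ok y.2.1 ((hC s σ h k hk q y).fr h2)).cast ((h1 _ _ _ h2).unique h3)

omit hk in
/-- **IX-ROW** (the body of `Sw.IxRow`) -/
theorem ix_row (y : σ.Pnt) (m n : ℤ) (e : Fr (Tc σ 7 0 (σ.pt 7 y)) m) (hn : σ.Ind n) :
    n = m + finrank ℝ T - 2 * nc - nr := by
  obtain ⟨r, h1, h2⟩ := hn 7 le_rfl 0 y
  obtain rfl : r = row σ 7 (σ.pt 7 y) := ContinuousLinearMap.ext fun v =>
    val_injective (sup h.ok) (by omega) ((h1 v).trans ((h.row 7 le_rfl).2 y v).symm)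
  rw [h2.unique (fr_TT h.ok y.2.1 e)]
  simp [sh, finrank_pi_fintype, mul_comm, sub_sub]

omit h hk in
/-- **SW-FRED** -/
theorem fredStmt (hM : MdStmt d ty X nc nr T) (h0 : Fr0 d ty X nc nr T) (hC : FrC d ty X nc nr T) :
    FredStmt d ty X nc nr T := fun s σ h =>
  ⟨_, ind_of (hM s σ h) h0 hC h.ne.some_mem (.of (h0 s σ (hM s σ h) 7 le_rfl _ _))⟩

end Crest.Agent.X212.Frc61
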